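import Vale.Agent.P365.T2.H213.Spec
import Vale.Agent.P365.T2.H179.Order2
import Vale.Agent.P365.T2.XDefs629

set_option linter.all false

/-!
# P365-T2: `XThm` from the one-time facts and the flow facts (helper912)

`Fn` = functional of a stage and a time.  `Sta` = state (good stage + time in it).
Inputs of `xthm_of` (one Prop per owner): `OnePart` (from 179's `OneFacts2` over `Sta`, theorem
`onePart_of`), and the five parts of the flow `DPart`, `LPart`, `UPart`, `QPart`, `ErrPart`.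
The functionals may depend on `lam, E, C1, d, gf`.
-/

namespace P365T2.H912

open P365T2.H213 P365T2.H179 P365L P365O P365T1 P365L.TL
open Vale.Agent.P365.J376
open Set MeasureTheory Filter Topology

/-! ### monotonicity of `Ok` -/

section mono

variable {N : ℕ} [NeZero N] {W : StW N} {lam E C1 η η' : ℝ}

theorem eT_pos {lam E C1 η : ℝ} (h : W.Ok lam E C1 η) (τ : ℝ) (l : Tor N → W.Λ) (x : Tor N) :
    0 < eT W.u W.w τ l x := by
  obtain ⟨b, hb, hu⟩ := h.u_pos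
  unfold eT
  have h1 := hu l x
  have h2 := mul_nonneg (Real.exp_pos (-τ)).le (h.w_nonneg l x)
  linarith

theorem Phi_nonneg (h : W.Ok lam E C1 η) {κ : Type} [Fintype κ] (F : κ → Tor N → ℝ) (τ : ℝ) :
    0 ≤ W.Phi E F τ := by
  unfold StW.Phi
  exact PhiG_nonneg h.p_nonneg fun l x => (eT_pos h τ l x).le

/-- larger `η` is weaker -/
theorem Ok.mono (h : W.Ok lam E C1 η) (h0 : 0 < η) (hη : η ≤ η') : W.Ok lam E C1 η' where
  p_nonneg := h.p_nonneg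
  p_sum := h.p_sum
  prob := h.prob
  supp := h.supp
  dens := h.dens
  mov := h.mov
  u_pos := h.u_pos
  w_nonneg := h.w_nonneg
  w_ge := by
    intro l x hw
    refine le_trans ?_ (h.w_ge l x hw)
    have hS : 0 < W.S := (one_div_pos.2 h0).trans_le h.S_ge
    exact Real.exp_le_exp.2 (neg_le_neg (mul_le_mul_of_nonneg_right hη hS.le))
  e_le := h.e_le
  S_ge := (one_div_le_one_div_of_le h0 hη).trans h.S_ge
  N_ge := by
    refine le_trans ?_ h.N_ge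
    have hS : 0 < W.S := (one_div_pos.2 h0).trans_le h.S_ge
    exact Real.exp_le_exp.2 (div_le_div_of_nonneg_left hS.le h0 hη)
  hub := by
    intro τ hτ κ _ F Λf hΛ hF
    refine (h.hub τ hτ κ F Λf hΛ hF).trans ?_
    have hS : 0 < W.S := (one_div_pos.2 h0).trans_le h.S_ge
    have h1 := Phi_nonneg h F τ
    have h2 : 0 ≤ W.Phi E F τ + Λf ^ 2 * (N : ℝ) ^ 2 := by positivity
    exact mul_le_mul_of_nonneg_right (div_le_div_of_nonneg_right hη (by positivity)) h2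
  en_le := h.en_le
  share := by
    intro τ hτ
    refine (h.share τ hτ).trans ?_
    have hS : 0 < W.S := (one_div_pos.2 h0).trans_le h.S_ge
    have h1 : W.S / η' ≤ W.S / η := div_le_div_of_nonneg_left hS.le h0 hη
    exact mul_le_mul_of_nonneg_right (Real.exp_le_exp.2 (by linarith)) (by positivity)
  weg := h.weg
  m4_start := by
    refine h.m4_start.trans ?_
    have hS : 0 < W.S := (one_div_pos.2 h0).trans_le h.S_ge
    exact mul_le_mul_of_nonneg_right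
      (Real.exp_le_exp.2 (mul_le_mul_of_nonneg_right hη hS.le)) (by positivity)
  m4 := h.m4

end mono

/-! ### functionals and states -/

/-- a functional of a stage and a time -/
def Fn : Type 1 := ∀ (N : ℕ) [NeZero N], StW N → ℝ → ℝ

/-- a state: a good stage and a time (629's structure) -/
abbrev Sta (lam E C1 : ℝ) : Type 1 := P365T2.X629.Sta lam E C1

/-- a functional on the states -/
def Fn.on (F : Fn) {lam E C1 : ℝ} (s : Sta lam E C1) : ℝ := @F s.N s.hN s.W s.τ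

/-- the state of the stage `W` at time `τ` (moved into the stage if necessary) -/
noncomputable def Sta.mk' {lam E C1 : ℝ} {N : ℕ} [nz : NeZero N] {W : StW N}
    (h : W.Ok lam E C1 1) (τ : ℝ) : Sta lam E C1 where
  N := N
  hN := nz
  W := W
  ok := h
  τ := max 0 (min τ W.S)
  hτ := by
    have hS : 0 < W.S := by
      have := h.S_ge
      rw [div_one] at this
      linarith
    exact ⟨le_max_left _ _, max_le hS.le (min_le_right _ _)⟩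

theorem on_mk' (F : Fn) {lam E C1 : ℝ} {N : ℕ} [nz : NeZero N] {W : StW N}
    (h : W.Ok lam E C1 1) {τ : ℝ} (hτ : τ ∈ Icc 0 W.S) : F.on (Sta.mk' h τ) = F N W τ := by
  have h1 : max 0 (min τ W.S) = τ := by rw [min_eq_left hτ.2, max_eq_right hτ.1]
  show F N W (max 0 (min τ W.S)) = _
  rw [h1]

theorem on_mk'_hasDerivAt (F : Fn) {lam E C1 : ℝ} {N : ℕ} [nz : NeZero N] {W : StW N}
    (h : W.Ok lam E C1 1) {τ d : ℝ} (hτ : τ ∈ Ioo 0 W.S) (hd : HasDerivAt (F N W) d τ) :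
    HasDerivAt (fun t => F.on (Sta.mk' h t)) d τ := by
  refine hd.congr_of_eventuallyEq ?_
  filter_upwards [isOpen_Ioo.mem_nhds hτ] with t ht
  exact on_mk' F h ⟨ht.1.le, ht.2.le⟩

/-! ### the five parts of the flow -/

/-- **energy part** (owner 548): `K` = bound of the energy -/
def DPart (lam E C1 : ℝ) (En Loss : Fn) : Prop :=
  ∃ K : ℝ, 0 < K ∧ ∀ ε : ℝ, 0 < ε → ∃ η : ℝ, 0 < η ∧ ∀ (N : ℕ) [NeZero N] (W : StW N),
    W.Ok lam E C1 1 → W.Ok lam E C1 η →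
    (∀ τ ∈ Icc 0 W.S, En N W τ ≤ K) ∧ ContinuousOn (En N W) (Icc 0 W.S) ∧
    (∀ τ ∈ Ioo 0 W.S, 0 ≤ Loss N W τ) ∧
    ∀ τ ∈ Ioo 0 W.S, ∃ d, HasDerivAt (En N W) d τ ∧ d ≤ -Loss N W τ + ε

/-- **logarithmic energy** (owner 219): if the energy of the position stays `≥ d` per site, then
there is a functional `L` that grows by `c S`, with derivative at most `Gr + ε`; `Gr` may depend
on `d` -/
def LPart (lam E C1 d : ℝ) (Gr : Fn) : Prop :=
  ∃ K c : ℝ, 0 < K ∧ 0 < c ∧ ∀ ε : ℝ, 0 < ε →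
    ∃ η : ℝ, 0 < η ∧ ∀ (N : ℕ) [NeZero N] (W : StW N),
      W.Ok lam E C1 1 → W.Ok lam E C1 η →
      (∀ τ ∈ Icc 0 W.S, d * (N : ℝ) ^ 2 ≤ W.Phi E (phi N) τ) →
      (∀ τ ∈ Ioo 0 W.S, Gr N W τ ≤ K) ∧
      ∃ L : ℝ → ℝ, ContinuousOn L (Icc 0 W.S) ∧
        (∀ τ ∈ Ioo 0 W.S, ∃ d, HasDerivAt L d τ ∧ d ≤ Gr N W τ + ε) ∧
        c * W.S ≤ L W.S - L 0

/-- **entropy** (owner 831): `T` = truncation level; `κT` = any constant `≥ 1` independent of `T`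
(e.g. `κT = 4` for a coefficient `2 (T + 2)` of the square root) -/
def UPart (lam E C1 : ℝ) (En Loss : Fn) (Pos : ℝ → Fn) : Prop :=
  ∃ K CU κT : ℝ, 0 < K ∧ 0 ≤ CU ∧ 1 ≤ κT ∧ ∀ T : ℝ, 1 ≤ T → ∀ ε : ℝ, 0 < ε →
    ∃ η : ℝ, 0 < η ∧ ∀ (N : ℕ) [NeZero N] (W : StW N),
      W.Ok lam E C1 1 → W.Ok lam E C1 η →
      (∀ τ ∈ Ioo 0 W.S, 0 ≤ Pos T N W τ) ∧
      ∃ U : ℝ → ℝ, -((κT * (T + 1) + CU) * K) ≤ U 0 ∧ U W.S ≤ (κT * (T + 1) + CU) * K ∧
        ContinuousOn U (Icc 0 W.S) ∧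
        ∀ τ ∈ Ioo 0 W.S, ∃ d, HasDerivAt U d τ ∧
          Pos T N W τ / 2 - CU * En N W τ -
            κT * (T + 1) * Real.sqrt (En N W τ * Loss N W τ) - ε ≤ d

/-- **second moments of the local energies** (owners 79/211/784/937/908): one level
`max (gf e) (CA / e)`; the functional `Q` is already divided by `e`, the constants `CQ`, `CA` do
not depend on `e` -/
def QPart (Q0 : ∀ (N : ℕ) [NeZero N], StW N → ℝ → (ℝ → ℝ) → ℝ → Prop) (lam E C1 : ℝ)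
    (gf : ℝ → ℝ) (Bn : ℝ → Fn) : Prop :=
  ∃ CQ CA : ℝ, 0 ≤ CQ ∧ 0 ≤ CA ∧ ∀ e : ℝ, 0 < e → e ≤ 1 → ∃ η₀ : ℝ, 0 < η₀ ∧
    ∀ η : ℝ, 0 < η → η ≤ η₀ →
    ∀ (N : ℕ) [NeZero N] (W : StW N), W.Ok lam E C1 1 → W.Ok lam E C1 η → Q0 N W E gf η →
      ∃ Q : ℝ → ℝ, Q 0 - Q W.S ≤ CQ * W.S ∧ ContinuousOn Q (Icc 0 W.S) ∧
        ∀ τ ∈ Ioo 0 W.S, ∃ d, HasDerivAt Q d τ ∧
          d ≤ -(Bn (max (gf e) (CA / e)) N W τ / e) + CQ

/-- **hub errors and static shares** (owner 629) -/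
def ErrPart (lam E C1 : ℝ) (Err : Fn) : Prop :=
  ∀ ε : ℝ, 0 < ε → ∃ η : ℝ, 0 < η ∧ ∀ (N : ℕ) [NeZero N] (W : StW N),
    W.Ok lam E C1 1 → W.Ok lam E C1 η → ∀ τ ∈ Ioo 0 W.S, Err N W τ ≤ ε

/-! ### what is used of ONE -/

/-- **ONE**: in every long flow with small errors over states, the logarithmic energy grows by less
than `c S` (conclusion of 179's `OneFacts2.stage`, with a free constant `κT` in front of the
truncation level) -/
def OnePart (lam E C1 : ℝ) (En Gr Loss Err : Fn) (Pos Bn : ℝ → Fn) : Prop :=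
  (∀ s : Sta lam E C1, 0 ≤ En.on s) ∧ (∀ (g : ℝ) (s : Sta lam E C1), 0 ≤ (Bn g).on s) ∧
  ∀ c K CU CQ κT : ℝ, 0 < c → 0 < K → 0 ≤ CU → 0 ≤ CQ → 1 ≤ κT → ∀ gf : ℝ → ℝ,
    (∀ e, 0 < e → 1 ≤ gf e) →
    ∃ T₀ : ℝ, 1 ≤ T₀ ∧ ∃ e₁ : ℝ, 0 < e₁ ∧ ∃ e₂ : ℝ, 0 < e₂ ∧ ∀ T : ℝ, T₀ ≤ T →
      ∃ ε₀ : ℝ, 0 < ε₀ ∧ ∃ S₀ : ℝ, 0 < S₀ ∧ ∀ S ≥ S₀, ∀ ε ≤ ε₀,
        ∀ (st : ℝ → Sta lam E C1) (L U Q : ℝ → ℝ),
        Flow K CU CQ (κT * (T + 1)) ε S (fun τ => En.on (st τ)) L U Q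
          (fun τ => Loss.on (st τ)) (fun τ => (Pos T).on (st τ)) (fun τ => Gr.on (st τ))
          (fun τ => (Bn (gf e₁)).on (st τ) / e₁ + (Bn (gf e₂)).on (st τ) / e₂) →
        (∀ τ ∈ Ioo 0 S, Err.on (st τ) ≤ ε₀) → L S - L 0 < c * S

/-- change of the truncation level in 179's facts -/
theorem reparam {St : Type*} {En Gr Loss Err : St → ℝ} {Pos Bn Mob : ℝ → St → ℝ}
    {Om : ℝ → ℝ → St → ℝ} {Sm : ℝ → ℝ → ℝ → St → ℝ}
    (h : OneFacts2 St En Gr Loss Err Pos Bn Mob Om Sm) {κT : ℝ} (hκ : 1 ≤ κT) :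
    OneFacts2 St En Gr Loss Err (fun T => Pos (T / κT - 1)) Bn Mob Om Sm where
  En0 := h.En0
  Bn0 := h.Bn0
  mob := h.mob
  det := h.det
  res := h.res
  om := by
    intro θ hθ hθ1
    obtain ⟨C, hC, h1⟩ := h.om θ hθ hθ1
    refine ⟨C, hC, fun k hk => ?_⟩
    obtain ⟨C', hC', T₀, hT₀, h2⟩ := h1 k hk
    have hκ0 : 0 < κT := by linarith
    refine ⟨C', hC', κT * (T₀ + 1), by nlinarith, fun T hT g hg ε hε hε1 s => ?_⟩
    refine h2 (T / κT - 1) ?_ g hg ε hε hε1 s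
    have : T₀ + 1 ≤ T / κT := by
      rw [le_div_iff₀ hκ0]
      linarith
    linarith

/-- ONE from 179's facts -/
theorem onePart_of {lam E C1 : ℝ} {En Gr Loss Err : Fn} {Pos Bn : ℝ → Fn}
    {Mob : ℝ → Sta lam E C1 → ℝ} {Om : ℝ → ℝ → Sta lam E C1 → ℝ}
    {Sm : ℝ → ℝ → ℝ → Sta lam E C1 → ℝ}
    (h : OneFacts2 (Sta lam E C1) En.on Gr.on Loss.on Err.on (fun T => (Pos T).on)
      (fun g => (Bn g).on) Mob Om Sm) : OnePart lam E C1 En Gr Loss Err Pos Bn := by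
  refine ⟨h.En0, h.Bn0, fun c K CU CQ κT hc hK hCU hCQ hκ gf hgf => ?_⟩
  have hκ0 : 0 < κT := by linarith
  obtain ⟨T₀, hT₀, e₁, he₁, e₂, he₂, h1⟩ := (reparam h hκ).stage hc hK hCU hCQ gf hgf
  refine ⟨T₀, hT₀, e₁, he₁, e₂, he₂, fun T hT => ?_⟩
  have h2 := h1 (κT * (T + 1)) (by nlinarith)
  have h3 : κT * (T + 1) / κT - 1 = T := by
    rw [mul_div_cancel_left₀ _ hκ0.ne']
    ring
  simp only [h3] at h2
  exact h2

/-! ### the composition -/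

/-- **the X side from the one-time facts and the five parts of the flow** -/
theorem xthm_of {Q0 : ∀ (N : ℕ) [NeZero N], StW N → ℝ → (ℝ → ℝ) → ℝ → Prop}
    (H : ∀ (lam E C1 d : ℝ) (gf : ℝ → ℝ), 0 < lam → |E| < 4 + lam → 0 < C1 → 0 < d →
      (∀ ρ, 1 ≤ gf ρ) → ∃ (En Gr Loss Err : Fn) (Pos Bn : ℝ → Fn),
        OnePart lam E C1 En Gr Loss Err Pos Bn ∧
        DPart lam E C1 En Loss ∧ LPart lam E C1 d Gr ∧ UPart lam E C1 En Loss Pos ∧
        QPart Q0 lam E C1 gf Bn ∧ ErrPart lam E C1 Err) : XThm Q0 := by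
  intro lam E C1 d gf hlam hE hC1 hd hgf
  obtain ⟨En, Gr, Loss, Err, Pos, Bn, ⟨hEn0, hBn0, h1⟩, hD, hL, hU, hQ, hErr⟩ :=
    H lam E C1 d gf hlam hE hC1 hd hgf
  obtain ⟨K1, hK1, hD⟩ := hD
  obtain ⟨K2, c, hK2, hc, hL⟩ := hL
  obtain ⟨K3, CU, κT, hK3, hCU, hκ, hU⟩ := hU
  obtain ⟨CQ, CA, hCQ, hCA, hQ⟩ := hQ
  -- common constants
  set K : ℝ := max K1 (max K2 K3) with hK
  have hK0 : 0 < K := lt_max_of_lt_left hK1
  have k1 : K1 ≤ K := le_max_left _ _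
  have k2 : K2 ≤ K := (le_max_left _ _).trans (le_max_right _ _)
  have k3 : K3 ≤ K := (le_max_right _ _).trans (le_max_right _ _)
  -- the stage theorem, with thresholds `gg e = max (gf (min e 1)) (CA / min e 1)`
  set gg : ℝ → ℝ := fun e => max (gf (min e 1)) (CA / min e 1) with hgg
  obtain ⟨T, hT, e₁, he₁, e₂, he₂, hst⟩ := h1 c K CU (2 * CQ) κT hc hK0 hCU (by positivity)
    hκ gg (fun e _ => (hgf _).trans (le_max_left _ _))
  have hκT : 0 ≤ κT * (T + 1) := by nlinarith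
  obtain ⟨ε₀, hε₀, S₀, hS₀, hst⟩ := hst T le_rfl
  obtain ⟨η1, hη1, hD⟩ := hD ε₀ hε₀
  obtain ⟨η2, hη2, hL⟩ := hL ε₀ hε₀
  obtain ⟨η3, hη3, hU⟩ := hU T hT ε₀ hε₀
  obtain ⟨η4, hη4, hQ1⟩ := hQ (min e₁ 1) (lt_min he₁ one_pos) (min_le_right _ _)
  obtain ⟨η5, hη5, hQ2⟩ := hQ (min e₂ 1) (lt_min he₂ one_pos) (min_le_right _ _)
  obtain ⟨η6, hη6, hErr⟩ := hErr ε₀ hε₀
  -- the final `η`
  set η : ℝ := min (min (min 1 (1 / S₀)) (min η1 η2)) (min (min η3 η4) (min η5 η6)) with hη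
  have hη0 : 0 < η := by
    refine lt_min (lt_min (lt_min one_pos (by positivity)) (lt_min hη1 hη2))
      (lt_min (lt_min hη3 hη4) (lt_min hη5 hη6))
  have a0 : η ≤ 1 :=
    (min_le_left _ _).trans ((min_le_left _ _).trans (min_le_left _ _))
  have a00 : η ≤ 1 / S₀ :=
    (min_le_left _ _).trans ((min_le_left _ _).trans (min_le_right _ _))
  have a1 : η ≤ η1 := (min_le_left _ _).trans ((min_le_right _ _).trans (min_le_left _ _))
  have a2 : η ≤ η2 := (min_le_left _ _).trans ((min_le_right _ _).trans (min_le_right _ _))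
  have a3 : η ≤ η3 := (min_le_right _ _).trans ((min_le_left _ _).trans (min_le_left _ _))
  have a4 : η ≤ η4 := (min_le_right _ _).trans ((min_le_left _ _).trans (min_le_right _ _))
  have a5 : η ≤ η5 := (min_le_right _ _).trans ((min_le_right _ _).trans (min_le_left _ _))
  have a6 : η ≤ η6 := (min_le_right _ _).trans ((min_le_right _ _).trans (min_le_right _ _))
  refine ⟨η, hη0, fun N _ W hW hQ0 => ?_⟩
  by_contra hcon
  push Not at hcon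
  have hW1 : W.Ok lam E C1 1 := Ok.mono hW hη0 a0
  have hS0 : S₀ ≤ W.S := by
    have g1 : 1 / η ≤ W.S := hW.S_ge
    have g2 : S₀ ≤ 1 / η := by
      rw [le_div_iff₀ hη0]
      rw [le_div_iff₀ hS₀] at a00
      linarith
    linarith
  have hSp : 0 < W.S := lt_of_lt_of_le hS₀ hS0
  obtain ⟨D1, D2, D3, D4⟩ := hD N W hW1 (Ok.mono hW hη0 a1)
  obtain ⟨L1, L, L2, L3, L4⟩ := hL N W hW1 (Ok.mono hW hη0 a2) fun τ hτ => (hcon τ hτ).le
  obtain ⟨U1, U, U2, U3, U4, U5⟩ := hU N W hW1 (Ok.mono hW hη0 a3)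
  obtain ⟨Q, Q1, Q2, Q3⟩ := hQ1 η hη0 a4 N W hW1 hW hQ0
  obtain ⟨Q', Q1', Q2', Q3'⟩ := hQ2 η hη0 a5 N W hW1 hW hQ0
  have E1 := hErr N W hW1 (Ok.mono hW hη0 a6)
  have mem : ∀ {τ}, τ ∈ Ioo 0 W.S → τ ∈ Icc 0 W.S := fun h => ⟨h.1.le, h.2.le⟩
  have hfl : Flow K CU (2 * CQ) (κT * (T + 1)) ε₀ W.S (fun τ => En.on (Sta.mk' hW1 τ)) L U
      (fun τ => Q τ + Q' τ) (fun τ => Loss.on (Sta.mk' hW1 τ))
      (fun τ => (Pos T).on (Sta.mk' hW1 τ)) (fun τ => Gr.on (Sta.mk' hW1 τ))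
      (fun τ => (Bn (gg e₁)).on (Sta.mk' hW1 τ) / e₁ +
        (Bn (gg e₂)).on (Sta.mk' hW1 τ) / e₂) := by
    refine
      { D0 := fun τ _ => hEn0 _
        D1 := fun τ hτ => ?_
        Loss0 := fun τ hτ => ?_
        Pos0 := fun τ hτ => ?_
        Cnt0 := fun τ hτ => ?_
        Gr1 := fun τ hτ => ?_
        Q01 := ?_
        U0 := ?_
        U1 := ?_
        cD := ?_
        cL := L2
        cU := U4
        cQ := Q2.add Q2'
        dD := fun τ hτ => ?_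
        dL := fun τ hτ => ?_
        dU := fun τ hτ => ?_
        dQ := fun τ hτ => ?_ }
    · show En.on (Sta.mk' hW1 τ) ≤ K
      rw [on_mk' En hW1 hτ]
      exact (D1 τ hτ).trans k1
    · show 0 ≤ Loss.on (Sta.mk' hW1 τ)
      rw [on_mk' Loss hW1 (mem hτ)]
      exact D3 τ hτ
    · show 0 ≤ (Pos T).on (Sta.mk' hW1 τ)
      rw [on_mk' (Pos T) hW1 (mem hτ)]
      exact U1 τ hτ
    · exact add_nonneg (div_nonneg (hBn0 _ _) he₁.le) (div_nonneg (hBn0 _ _) he₂.le)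
    · show Gr.on (Sta.mk' hW1 τ) ≤ K
      rw [on_mk' Gr hW1 (mem hτ)]
      exact (L1 τ hτ).trans k2
    · show Q 0 + Q' 0 - (Q W.S + Q' W.S) ≤ 2 * CQ * W.S
      linarith
    · have : (κT * (T + 1) + CU) * K3 ≤ (κT * (T + 1) + CU) * K :=
        mul_le_mul_of_nonneg_left k3 (by linarith)
      linarith
    · have : (κT * (T + 1) + CU) * K3 ≤ (κT * (T + 1) + CU) * K :=
        mul_le_mul_of_nonneg_left k3 (by linarith)
      linarith
    · exact D2.congr fun τ hτ => on_mk' En hW1 hτ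
    · obtain ⟨d', hd', hd''⟩ := D4 τ hτ
      refine ⟨d', on_mk'_hasDerivAt En hW1 hτ hd', ?_⟩
      show d' ≤ -Loss.on (Sta.mk' hW1 τ) + ε₀
      rw [on_mk' Loss hW1 (mem hτ)]
      exact hd''
    · obtain ⟨d', hd', hd''⟩ := L3 τ hτ
      refine ⟨d', hd', ?_⟩
      show d' ≤ Gr.on (Sta.mk' hW1 τ) + ε₀
      rw [on_mk' Gr hW1 (mem hτ)]
      exact hd''
    · obtain ⟨d', hd', hd''⟩ := U5 τ hτ
      refine ⟨d', hd', ?_⟩
      show (Pos T).on (Sta.mk' hW1 τ) / 2 - CU * En.on (Sta.mk' hW1 τ) -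
        κT * (T + 1) * Real.sqrt (En.on (Sta.mk' hW1 τ) * Loss.on (Sta.mk' hW1 τ)) - ε₀ ≤ d'
      rw [on_mk' (Pos T) hW1 (mem hτ), on_mk' En hW1 (mem hτ), on_mk' Loss hW1 (mem hτ)]
      exact hd''
    · obtain ⟨d1, hd1, hd1'⟩ := Q3 τ hτ
      obtain ⟨d2, hd2, hd2'⟩ := Q3' τ hτ
      refine ⟨d1 + d2, hd1.add hd2, ?_⟩
      have b1 : 0 ≤ Bn (gg e₁) N W τ := by
        rw [← on_mk' (Bn (gg e₁)) hW1 (mem hτ)]
        exact hBn0 _ _
      have b2 : 0 ≤ Bn (gg e₂) N W τ := by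
        rw [← on_mk' (Bn (gg e₂)) hW1 (mem hτ)]
        exact hBn0 _ _
      have c1 : Bn (gg e₁) N W τ / e₁ ≤ Bn (gg e₁) N W τ / min e₁ 1 :=
        div_le_div_of_nonneg_left b1 (lt_min he₁ one_pos) (min_le_left _ _)
      have c2 : Bn (gg e₂) N W τ / e₂ ≤ Bn (gg e₂) N W τ / min e₂ 1 :=
        div_le_div_of_nonneg_left b2 (lt_min he₂ one_pos) (min_le_left _ _)
      have hd1'' : d1 ≤ -(Bn (gg e₁) N W τ / min e₁ 1) + CQ := hd1'
      have hd2'' : d2 ≤ -(Bn (gg e₂) N W τ / min e₂ 1) + CQ := hd2'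
      show d1 + d2 ≤ -((Bn (gg e₁)).on (Sta.mk' hW1 τ) / e₁ +
        (Bn (gg e₂)).on (Sta.mk' hW1 τ) / e₂) + 2 * CQ
      rw [on_mk' _ hW1 (mem hτ), on_mk' _ hW1 (mem hτ)]
      linarith
  have := hst W.S hS0 ε₀ le_rfl (fun τ => Sta.mk' hW1 τ) L U _ hfl fun τ hτ => by
    show Err.on (Sta.mk' hW1 τ) ≤ ε₀
    rw [on_mk' Err hW1 (mem hτ)]
    exact E1 τ hτ
  linarith

end P365T2.H912
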