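import Vale.Agent.P365.T2.H963.XFin
import Vale.Agent.P365.T2.H213.Goal
import Vale.Agent.P365.T2.H908.Q0Part
import Vale.Agent.P365.T2.H704.HubEn
import Vale.Agent.P365.T2.H701.ShareWeg

set_option linter.all false

/-!
# P365-T2: all the pieces fit (helper912)

`goal_fit`: the goal from the four Props that are still open (`OneX`, `UCore` and `UBd`, `QPart`,
`TorSmall`).
-/

namespace P365T2.H912

open P365T2.H213 P365T2.H963
open P365T2.H831 (UCore UBd)
open P365T2.H784 (Q0)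

/-- **the K side is closed** -/
theorem kbind : KBind Q0 :=
  P365T2.H704.kbind_of P365T2.H704.hubEn P365T2.H701.shareWeg P365T2.H908.q0Part

/-- the goal from the open Props -/
theorem goal_fit.{u}
    (hOne : ∀ lam E C1 : ℝ, 0 < lam → |E| < 4 + lam → 0 < C1 → OneX lam E C1)
    (hCore : ∀ lam E C1 : ℝ, 0 < lam → |E| < 4 + lam → 0 < C1 → UCore lam E C1)
    (hBd : ∀ lam E C1 : ℝ, 0 < lam → |E| < 4 + lam → 0 < C1 → UBd lam E C1)
    (hQ : ∀ (lam E C1 : ℝ) (gf : ℝ → ℝ), 0 < lam → |E| < 4 + lam → 0 < C1 → (∀ ρ, 1 ≤ gf ρ) →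
      QPart Q0 lam E C1 gf (FBn E C1)) (hT : TorSmall) : Goal.{u} :=
  goal_of (xthm_of_core hOne hCore hBd hQ) kbind hT

end P365T2.H912
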