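import Vale.Agent.P365.T2.H912.Fit
import Vale.Agent.P365.T2.H831.UPart2
import Vale.Agent.P365.T2.H937.QFin
import Vale.Agent.P365.T2.H227.FlowBnd
import Vale.Agent.P365.T2.H692.TorSmall

set_option linter.all false

/-!
# P365-T2: the goal from the two Props that are still open, `OneX` and `ULaw` (helper912)
-/

namespace P365T2.H912

open P365T2.H213 P365T2.H963
open P365T2.H831 (ULaw)
open P365T2.H784 (Q0)

/-- the X side from `OneX` and `ULaw` -/
theorem xthm_fit2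
    (hOne : ∀ lam E C1 : ℝ, 0 < lam → |E| < 4 + lam → 0 < C1 → OneX lam E C1)
    (hLaw : ∀ lam E C1 : ℝ, 0 < lam → |E| < 4 + lam → 0 < C1 → ULaw lam E C1) : XThm Q0 :=
  xthm_gen (fun lam E C1 h1 h2 h3 => ⟨FErr E C1, P365T2.H227.errPart h3, hOne lam E C1 h1 h2 h3⟩)
    (fun lam E C1 h1 h2 h3 => P365T2.H831.uPart_of_law h1 h3 (hLaw lam E C1 h1 h2 h3))
    (fun lam E C1 gf h1 h2 h3 h4 => P365T2.H937.qPartX lam E C1 gf h1 h2 h3 h4)

/-- the goal from `OneX` and `ULaw` -/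
theorem goal_fit2.{u}
    (hOne : ∀ lam E C1 : ℝ, 0 < lam → |E| < 4 + lam → 0 < C1 → OneX lam E C1)
    (hLaw : ∀ lam E C1 : ℝ, 0 < lam → |E| < 4 + lam → 0 < C1 → ULaw lam E C1) : Goal.{u} :=
  goal_of (xthm_fit2 hOne hLaw) kbind P365T2.H692.B6.torSmall

end P365T2.H912
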