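import Vale.Agent.P365.T2.H912.Fit2
import Vale.Agent.P365.T2.H259.One
import Vale.Agent.P365.T2.H863.Res
import Vale.Agent.P365.T2.H869.ULaw

set_option linter.all false

/-!
# P365-T2: the goal from the only Prop that is still open, `OmF` (helper912)
-/

namespace P365T2.H912

open P365T2.H213 P365T2.H963 P365T2.H259
open P365T2.H831 (ULaw)
open P365T2.H784 (Q0)

/-- `ResF` is a theorem (863) -/
theorem resF {lam E C1 : ℝ} (hlam : 0 < lam) : ResF lam E C1 := by
  intro ε₁ h1 _ ε₂ h2 _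
  refine ⟨max 1 (P365T2.H863.CRes lam E ε₁ ε₂), lt_max_of_lt_left one_pos, fun N _ W h τ hτ => ?_⟩
  refine (P365T2.H863.SmX_le hlam h h1 h2 τ).trans ?_
  refine mul_le_mul_of_nonneg_right (le_max_right _ _) ?_
  exact add_nonneg (P365T2.X629.LossX_nonneg h _ _) (P365T2.X629.ErrX_nonneg h _ _)

/-- the goal from `OmF` and `ULaw` -/
theorem goal_fit3.{u}
    (hOm : ∀ lam E C1 : ℝ, 0 < lam → |E| < 4 + lam → 0 < C1 → OmF lam E C1) : Goal.{u} :=
  goal_fit2 (fun lam E C1 h1 h2 h3 => oneX_of h1 (resF h1) (hOm lam E C1 h1 h2 h3))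
    (fun lam E C1 h1 _ h3 => P365T2.H869.uLaw h1 E C1 h3)

end P365T2.H912
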