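import Vale.Agent.P365.T2.H912.Fit3
import Vale.Agent.P365.T2.H963.OmAv

set_option linter.all false

/-!
# P365-T2: full Q2 (helper912)
-/

namespace P365T2.H912

open P365T2.H213

/-- **Q2**: two-dimensional localization for the exact uniform law at every disorder -/
theorem goal.{u} : Goal.{u} :=
  goal_fit3 fun _ _ _ h1 _ h3 => P365T2.H963.omF h1 h3

end P365T2.H912
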