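import Vale.Agent.P365.T2.H912.XThm
import Vale.Agent.P365.H219.LFlow

set_option linter.all false

/-!
# P365-T2: the logarithmic part of the flow, from 219's `LFlow` (helper912)
-/

namespace P365T2.H912

open P365T2.H213 P365T2.H179 P365L P365O P365T1 P365L.TL P365H219
open Vale.Agent.P365.J376
open Set MeasureTheory Filter Topology

open Classical in
/-- number of scales used in the stage `W` -/
noncomputable def nOf {N : ℕ} [NeZero N] (W : StW N) (E d : ℝ) : ℕ :=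
  if h : ∃ n : ℕ, (n : ℝ) ≤ W.S ∧ d / 16 * W.S ≤ LW W E n W.S - LW W E n 0 then h.choose else 0

/-- growth rate of the logarithmic energy -/
noncomputable def GrF (E d : ℝ) : Fn := fun N _ W τ => GW W E (nOf W E d) τ

theorem nOf_spec {N : ℕ} [NeZero N] {W : StW N} {lam E C1 η d : ℝ} (h : W.Ok lam E C1 η)
    (hd : 0 < d) (hη : 0 < η) (hC1 : 0 < C1) (hη1 : η ≤ etaL d C1)
    (hD : d ≤ DW W E (phi N) W.S) :
    (nOf W E d : ℝ) ≤ W.S ∧
      d / 16 * W.S ≤ LW W E (nOf W E d) W.S - LW W E (nOf W E d) 0 := by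
  have h1 := L_growth h hd hη hC1 hη1 hD
  unfold nOf
  rw [dif_pos h1]
  exact h1.choose_spec

theorem etaL_le_one (d C1 : ℝ) : etaL d C1 ≤ 1 :=
  (min_le_left _ _).trans (min_le_left _ _)

/-- **the logarithmic part of the flow** -/
theorem lPart {lam E C1 d : ℝ} (hlam : 0 < lam) (hC1 : 0 < C1) (hd : 0 < d) :
    LPart lam E C1 d (GrF E d) := by
  refine ⟨2368 * C1, d / 16, by positivity, by positivity, fun ε hε => ?_⟩
  have hc := CauC_nonneg lam E
  refine ⟨min (etaL d C1) (ε / (80 * CauC lam E * (C1 + 1) + 1)),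
    lt_min (etaL_pos hd hC1) (by positivity), fun N _ W h1 h hen => ?_⟩
  set η := min (etaL d C1) (ε / (80 * CauC lam E * (C1 + 1) + 1)) with hη
  have hη0 : 0 < η := lt_min (etaL_pos hd hC1) (by positivity)
  have a1 : η ≤ etaL d C1 := min_le_left _ _
  have a2 : 80 * CauC lam E * (C1 + 1) * η ≤ ε := by
    have g1 : η ≤ ε / (80 * CauC lam E * (C1 + 1) + 1) := min_le_right _ _
    rw [le_div_iff₀ (by positivity)] at g1
    nlinarith
  have a3 : η ≤ 1 := a1.trans (etaL_le_one _ _)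
  have hS : 0 < W.S := (one_div_pos.2 hη0).trans_le h.S_ge
  have hD : d ≤ DW W E (phi N) W.S := by
    unfold DW
    rw [le_div_iff₀ N_sq_pos]
    exact hen W.S ⟨hS.le, le_rfl⟩
  obtain ⟨b1, b2⟩ := nOf_spec h hd hη0 hC1 a1 hD
  refine ⟨fun τ hτ => GW_le h _ ⟨hτ.1.le, hτ.2.le⟩, LW W E (nOf W E d),
    (cont_LW h _).continuousOn, fun τ hτ => ?_, b2⟩
  obtain ⟨d', hd', hd''⟩ := lflow h hlam hη0 a3 hC1 b1 ⟨hτ.1.le, hτ.2.le⟩
  refine ⟨d', hd', ?_⟩
  have := (abs_le.1 (hd''.trans a2)).2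
  show d' ≤ GW W E (nOf W E d) τ + ε
  linarith

end P365T2.H912
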